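import Vale.Agent.P159.H873.Main
import Vale.Agent.P159.H260.Unif
import Mathlib.Analysis.Fourier.AddCircle
import Mathlib.Analysis.Normed.Group.Tannery

/-!
Products of local observables of the XY model at distant sites: observables with absolutely
convergent Fourier series.
-/

set_option linter.all false
set_option autoImplicit false

open MeasureTheory Filter Topology
open scoped BigOperators

namespace Vale.Agent.P159.H260

open Vale.Agent.P159 Vale.Agent.P159.UJ Vale.Agent.P159.H454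

/-- uniform bound for charges in terms of the helicity modulus -/
theorem unif_charges {b κ : ℝ} (hb : 0 < b) (hκ0 : 0 ≤ κ)
    (hκ : κ * (4 * Real.pi * helicity b) < 1) {k : ℕ} (q : Fin k → ℝ) (hq : ∀ j, 0 ≤ q j) :
    ∃ K : ℝ, 0 < K ∧ ∀ (m : Fin k → ℤ), (∀ j, q j ≤ |(m j : ℝ)|) →
      ∀ (R : ℕ) (x : Fin k → ℤ × ℤ) (d : Fin k → ℕ), (∀ j, x j ∈ box R) →
      (∀ j, 1 ≤ d j) →
      (∀ i j, i ≠ j → (d i : ℤ) ≤ max |(x i - x j).1| |(x i - x j).2|) →
      chargeCorr R b m x ≤ K * ∏ j, (d j : ℝ) ^ (-(κ * q j ^ 2)) := by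
  obtain ⟨l, hl, hlκ⟩ := H873.exists_block_lt hb hκ
  have hpi := Real.pi_pos
  have hS := H873.stiff_pos hl hb
  obtain ⟨K, hK0, hK⟩ := unif_aux hl hb.le hS le_rfl q hq
  refine ⟨K, hK0, fun m hm R x d hx hd hdist => (hK m hm R x d hx hd hdist).trans ?_⟩
  refine mul_le_mul_of_nonneg_left ?_ hK0.le
  refine Finset.prod_le_prod (fun j _ => by positivity) fun j _ => ?_
  refine Real.rpow_le_rpow_of_exponent_le (by exact_mod_cast hd j) ?_
  have h3 : κ * (q j) ^ 2 ≤ (q j) ^ 2 / (4 * Real.pi * stiff l b) := by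
    rw [div_eq_mul_one_div, mul_comm ((q j) ^ 2)]
    exact mul_le_mul_of_nonneg_right hlκ (by positivity)
  linarith

/-- products of absolutely convergent series -/
theorem prod_series {𝔸 : Type*} [NormedField 𝔸] [CompleteSpace 𝔸] : ∀ (k : ℕ)
    (u : Fin k → ℤ → 𝔸), (∀ j, Summable fun n => ‖u j n‖) →
    (Summable fun m : Fin k → ℤ => ‖∏ j, u j (m j)‖) ∧
      ∑' m : Fin k → ℤ, ∏ j, u j (m j) = ∏ j, ∑' n, u j n := by
  intro k
  induction k with
  | zero =>
    intro u _
    refine ⟨summable_of_finite_support (Set.toFinite _), ?_⟩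
    rw [tsum_fintype]
    simp
  | succ k ih =>
    intro u hu
    obtain ⟨h1, h2⟩ := ih (fun j => u j.succ) (fun j => hu j.succ)
    have e : ∀ p : ℤ × (Fin k → ℤ), ∏ j, u j ((Fin.consEquiv (fun _ => ℤ)) p j) =
        u 0 p.1 * ∏ j, u j.succ (p.2 j) := by
      intro p
      rw [Fin.prod_univ_succ]
      rfl
    constructor
    · rw [← (Fin.consEquiv (fun _ : Fin (k + 1) => ℤ)).summable_iff]
      have := (hu 0).mul_norm h1
      refine this.congr fun p => ?_
      rw [Function.comp_apply, e]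
    · rw [← (Fin.consEquiv (fun _ : Fin (k + 1) => ℤ)).tsum_eq, Fin.prod_univ_succ, ← h2,
        tsum_mul_tsum_of_summable_norm (hu 0) h1]
      exact tsum_congr e

theorem ext_neg {S : Finset (ℤ × ℤ)} (θ : S → T) (x : ℤ × ℤ) : ext (-θ) x = -ext θ x := by
  unfold ext
  split_ifs
  · rfl
  · simp

theorem boxEnergy_neg (R : ℕ) (b : ℝ) (θ : box R → T) :
    boxEnergy R b (-θ) = boxEnergy R b θ := by
  unfold boxEnergy
  refine Finset.sum_congr rfl fun u _ => Finset.sum_congr rfl fun v _ => ?_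
  congr 1
  have h : (-θ) u - (-θ) v = -(θ u - θ v) := by
    simp only [Pi.neg_apply]
    abel
  rw [h]
  exact Real.Angle.cos_neg _

theorem boxEnergy_cont (R : ℕ) (b : ℝ) : Continuous (boxEnergy R b) := by
  have h : boxEnergy R b = fun θ => boxE R b (ext θ) := by
    funext θ
    exact boxEnergy_eq R b θ
  rw [h]
  exact (boxE_cont R b).comp (ext_cont (box R))

theorem tint {V : Type*} [Fintype V] {f : (V → T) → ℝ} (hf : Continuous f) :
    Integrable f (torusHaar V) :=
  hf.integrable_of_hasCompactSupport (HasCompactSupport.of_compactSpace _)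

theorem int_odd {V : Type*} [Fintype V] {H g : (V → T) → ℝ} (hH : ∀ θ, H (-θ) = H θ)
    (hg : ∀ θ, g (-θ) = - g θ) : ∫ θ, g θ * Real.exp (H θ) ∂torusHaar V = 0 := by
  have h := integral_neg_eq_self (fun θ => g θ * Real.exp (H θ)) (torusHaar V)
  simp only [hH, hg, neg_mul, integral_neg] at h
  linarith

theorem toCircle_eq (θ : T) :
    ((AddCircle.toCircle θ : Circle) : ℂ) = (cosT θ : ℂ) + (sinT θ : ℂ) * Complex.I := by
  induction θ using QuotientAddGroup.induction_on with
  | H x =>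
    have h1 : AddCircle.toCircle (x : T) = Circle.exp x := by
      rw [AddCircle.toCircle_apply_mk, div_self Real.two_pi_pos.ne', one_mul]
    have h2 : cosT (x : T) = Real.cos x := rfl
    have h3 : sinT (x : T) = Real.sin x := rfl
    rw [h1, h2, h3, Circle.coe_exp, Complex.exp_mul_I]
    push_cast
    rfl

theorem prod_fourier {k : ℕ} (m : Fin k → ℤ) (ψ : Fin k → T) (t : Finset (Fin k)) :
    ∏ j ∈ t, fourier (m j) (ψ j) = ((AddCircle.toCircle (∑ j ∈ t, m j • ψ j) : Circle) : ℂ) := by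
  classical
  induction t using Finset.induction_on with
  | empty => simp
  | insert j t hj ih =>
    rw [Finset.prod_insert hj, Finset.sum_insert hj, ih, AddCircle.toCircle_add, fourier_apply]
    simp

theorem cosT_cont {S : Finset (ℤ × ℤ)} {k : ℕ} (m : Fin k → ℤ) (x : Fin k → ℤ × ℤ) :
    Continuous (fun θ : S → T => cosT (∑ j, m j • ext θ (x j))) := by
  refine cont_cos.comp (continuous_finsetSum _ fun j _ => ?_)
  exact ((continuous_apply (x j)).comp (ext_cont S)).zsmul (m j)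

theorem sinT_cont {S : Finset (ℤ × ℤ)} {k : ℕ} (m : Fin k → ℤ) (x : Fin k → ℤ × ℤ) :
    Continuous (fun θ : S → T => sinT (∑ j, m j • ext θ (x j))) := by
  refine cont_sin.comp (continuous_finsetSum _ fun j _ => ?_)
  exact ((continuous_apply (x j)).comp (ext_cont S)).zsmul (m j)

theorem abs_cosT (y : T) : |cosT y| ≤ 1 := by
  have h : cosT y ^ 2 + sinT y ^ 2 = 1 := Real.Angle.cos_sq_add_sin_sq y
  rw [← sq_le_one_iff_abs_le_one]
  nlinarith [sq_nonneg (sinT y)]

theorem abs_sinT (y : T) : |sinT y| ≤ 1 := by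
  have h : cosT y ^ 2 + sinT y ^ 2 = 1 := Real.Angle.cos_sq_add_sin_sq y
  rw [← sq_le_one_iff_abs_le_one]
  nlinarith [sq_nonneg (cosT y)]

/-- the product of the observables as a series of characters -/
theorem prod_expand {k : ℕ} (a : Fin k → ℤ → ℂ) (f : Fin k → T → ℝ)
    (ha : ∀ j, Summable fun n => ‖a j n‖)
    (hf : ∀ j θ, HasSum (fun n => a j n * fourier n θ) (f j θ : ℂ)) (ψ : Fin k → T) :
    ∏ j, f j (ψ j) = ∑' m : Fin k → ℤ, ((∏ j, a j (m j)).re * cosT (∑ j, m j • ψ j) -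
      (∏ j, a j (m j)).im * sinT (∑ j, m j • ψ j)) := by
  have hn : ∀ j, Summable fun n => ‖a j n * fourier n (ψ j)‖ := by
    intro j
    refine (ha j).congr fun n => ?_
    rw [norm_mul, fourier_apply, Circle.norm_coe, mul_one]
  obtain ⟨h1, h2⟩ := prod_series k (fun j n => a j n * fourier n (ψ j)) hn
  have h3 : ∀ m : Fin k → ℤ, ∏ j, (a j (m j) * fourier (m j) (ψ j)) = (∏ j, a j (m j)) *
      ((cosT (∑ j, m j • ψ j) : ℂ) + (sinT (∑ j, m j • ψ j) : ℂ) * Complex.I) := by
    intro m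
    rw [Finset.prod_mul_distrib, prod_fourier, toCircle_eq]
  have h4 : ∀ j, ∑' n, a j n * fourier n (ψ j) = (f j (ψ j) : ℂ) := fun j => (hf j _).tsum_eq
  simp only [h4] at h2
  have h5 : Summable fun m : Fin k → ℤ => ∏ j, (a j (m j) * fourier (m j) (ψ j)) := h1.of_norm
  have h6 := congrArg Complex.re h2
  rw [Complex.re_tsum h5] at h6
  rw [← Complex.ofReal_prod, Complex.ofReal_re] at h6
  rw [← h6]
  refine tsum_congr fun m => ?_
  rw [h3, Complex.mul_re]
  simp

/-- the expectation of the product as a series of correlations of charges -/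
theorem expect_series (R : ℕ) (b : ℝ) {k : ℕ} (a : Fin k → ℤ → ℂ) (f : Fin k → T → ℝ)
    (ha : ∀ j, Summable fun n => ‖a j n‖)
    (hf : ∀ j θ, HasSum (fun n => a j n * fourier n θ) (f j θ : ℂ)) (x : Fin k → ℤ × ℤ) :
    expect (boxEnergy R b) (fun θ => ∏ j, f j (ext θ (x j))) =
      ∑' m : Fin k → ℤ, (∏ j, a j (m j)).re * chargeCorr R b m x := by
  have hH : Continuous (boxEnergy R b) := boxEnergy_cont R b
  have hE : Continuous (fun θ : box R → T => Real.exp (boxEnergy R b θ)) :=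
    Real.continuous_exp.comp hH
  set F : (Fin k → ℤ) → (box R → T) → ℝ := fun m θ =>
    ((∏ j, a j (m j)).re * cosT (∑ j, m j • ext θ (x j)) -
      (∏ j, a j (m j)).im * sinT (∑ j, m j • ext θ (x j))) * Real.exp (boxEnergy R b θ) with hF
  have hFc : ∀ m, Continuous (F m) := fun m => ((continuous_const.mul (cosT_cont m x)).sub
    (continuous_const.mul (sinT_cont m x))).mul hE
  obtain ⟨hA, _⟩ := prod_series k a ha
  have hbd : ∀ m, ∫ θ, ‖F m θ‖ ∂torusHaar (box R) ≤
      2 * ‖∏ j, a j (m j)‖ * ∫ θ, Real.exp (boxEnergy R b θ) ∂torusHaar (box R) := by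
    intro m
    rw [← integral_const_mul]
    refine integral_mono (tint (hFc m).norm) (tint (continuous_const.mul hE)) fun θ => ?_
    show ‖F m θ‖ ≤ _
    simp only [hF]
    rw [norm_mul, Real.norm_of_nonneg (Real.exp_pos _).le]
    refine mul_le_mul_of_nonneg_right ?_ (Real.exp_pos _).le
    have g1 := Complex.abs_re_le_norm (∏ j, a j (m j))
    have g2 := Complex.abs_im_le_norm (∏ j, a j (m j))
    have g3 : |cosT (∑ j, m j • ext θ (x j))| ≤ 1 := abs_cosT _
    have g4 : |sinT (∑ j, m j • ext θ (x j))| ≤ 1 := abs_sinT _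
    rw [Real.norm_eq_abs]
    refine (abs_sub _ _).trans ?_
    rw [abs_mul, abs_mul]
    have g5 := mul_le_mul g1 g3 (abs_nonneg _) (norm_nonneg _)
    have g6 := mul_le_mul g2 g4 (abs_nonneg _) (norm_nonneg _)
    linarith
  have hs : Summable fun m => ∫ θ, ‖F m θ‖ ∂torusHaar (box R) :=
    Summable.of_nonneg_of_le (fun m => integral_nonneg fun θ => norm_nonneg _) hbd
      ((hA.mul_left 2).mul_right _)
  have h1 := hasSum_integral_of_summable_integral_norm (fun m => tint (hFc m)) hs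
  have h2 : ∀ θ : box R → T, (∏ j, f j (ext θ (x j))) * Real.exp (boxEnergy R b θ) =
      ∑' m, F m θ := by
    intro θ
    rw [prod_expand a f ha hf (fun j => ext θ (x j)), ← tsum_mul_right]
  have h3 : ∀ m, ∫ θ, F m θ ∂torusHaar (box R) = (∏ j, a j (m j)).re *
      ∫ θ, cosT (∑ j, m j • ext θ (x j)) * Real.exp (boxEnergy R b θ) ∂torusHaar (box R) := by
    intro m
    have g0 : ∫ θ, sinT (∑ j, m j • ext θ (x j)) * Real.exp (boxEnergy R b θ)
        ∂torusHaar (box R) = 0 := by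
      refine int_odd (H := boxEnergy R b) (boxEnergy_neg R b)
        (g := fun θ => sinT (∑ j, m j • ext θ (x j))) fun θ => ?_
      have h2 : ∑ j, m j • ext (-θ) (x j) = -∑ j, m j • ext θ (x j) := by
        rw [← Finset.sum_neg_distrib]
        refine Finset.sum_congr rfl fun j _ => ?_
        rw [ext_neg, zsmul_neg]
      rw [h2]
      exact Real.Angle.sin_neg _
    have g1 : ∀ θ : box R → T, F m θ = (∏ j, a j (m j)).re *
        (cosT (∑ j, m j • ext θ (x j)) * Real.exp (boxEnergy R b θ)) -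
        (∏ j, a j (m j)).im * (sinT (∑ j, m j • ext θ (x j)) *
          Real.exp (boxEnergy R b θ)) := by
      intro θ
      simp only [hF]
      ring
    simp_rw [g1]
    have i1 : Integrable (fun θ : box R → T => (∏ j, a j (m j)).re *
        (cosT (∑ j, m j • ext θ (x j)) * Real.exp (boxEnergy R b θ))) (torusHaar (box R)) :=
      tint (continuous_const.mul ((cosT_cont m x).mul hE))
    have i2 : Integrable (fun θ : box R → T => (∏ j, a j (m j)).im *
        (sinT (∑ j, m j • ext θ (x j)) * Real.exp (boxEnergy R b θ))) (torusHaar (box R)) :=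
      tint (continuous_const.mul ((sinT_cont m x).mul hE))
    rw [integral_sub i1 i2, integral_const_mul, integral_const_mul, g0, mul_zero, sub_zero]
  unfold expect
  simp_rw [h2]
  rw [← h1.tsum_eq]
  simp_rw [h3]
  rw [← tsum_div_const]
  refine tsum_congr fun m => ?_
  rw [mul_div_assoc]
  rfl

theorem chargeCorr_tendsto' {b : ℝ} (hb : 0 ≤ b) {k : ℕ} (m : Fin k → ℤ) (x : Fin k → ℤ × ℤ) :
    ∃ c : ℝ, Tendsto (fun R : ℕ => chargeCorr R b m x) atTop (𝓝 c) := by
  obtain ⟨c, h, _⟩ := chargeCorr_tendsto hb m x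
  exact ⟨c, h⟩

theorem eventually_box {k : ℕ} (x : Fin k → ℤ × ℤ) :
    ∀ᶠ R : ℕ in atTop, ∀ j, x j ∈ box R := by
  rw [eventually_atTop]
  refine ⟨∑ j, ((x j).1.natAbs + (x j).2.natAbs), fun R hR j => ?_⟩
  have h := Finset.single_le_sum (f := fun j => (x j).1.natAbs + (x j).2.natAbs)
    (fun i _ => Nat.zero_le _) (Finset.mem_univ j)
  rw [mem_box, Int.abs_eq_natAbs, Int.abs_eq_natAbs]
  constructor <;> omega

/-- the Fourier coefficients `∫ f(θ) e^{-inθ} dθ/2π` of a function on the circle -/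
noncomputable def fc (f : C(T, ℝ)) (n : ℤ) : ℂ := fourierCoeff (fun θ : T => (f θ : ℂ)) n

theorem fc_hasSum (f : C(T, ℝ)) (h : Summable fun n => ‖fc f n‖) (θ : T) :
    HasSum (fun n => fc f n * fourier n θ) (f θ : ℂ) := by
  set g : C(T, ℂ) := ⟨fun θ => (f θ : ℂ), Complex.continuous_ofReal.comp f.continuous⟩ with hg
  have h1 : Summable (fourierCoeff g) := h.of_norm
  exact has_pointwise_sum_fourier_series_of_summable h1 θ

/-- products of local observables with absolutely convergent Fourier series -/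
theorem local_series {b κ : ℝ} (hb : 0 < b) (hκ0 : 0 ≤ κ)
    (hκ : κ * (4 * Real.pi * helicity b) < 1) (k : ℕ) (q : Fin k → ℕ) :
    ∃ K : ℝ, 0 < K ∧ ∀ f : Fin k → C(T, ℝ), (∀ j, Summable fun n : ℤ => ‖fc (f j) n‖) →
      (∀ j (n : ℤ), |n| < q j → fc (f j) n = 0) →
      ∀ (x : Fin k → ℤ × ℤ) (d : Fin k → ℕ), (∀ j, 1 ≤ d j) →
        (∀ i j, i ≠ j → (d i : ℤ) ≤ max |(x i - x j).1| |(x i - x j).2|) →
        (∀ R : ℕ, (∀ j, x j ∈ box R) →
          |expect (boxEnergy R b) fun θ => ∏ j, f j (ext θ (x j))| ≤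
            K * (∏ j, ∑' n : ℤ, ‖fc (f j) n‖) * ∏ j, (d j : ℝ) ^ (-(κ * (q j : ℝ) ^ 2))) ∧
        ∃ c : ℝ, Tendsto (fun R : ℕ => expect (boxEnergy R b)
            fun θ => ∏ j, f j (ext θ (x j))) atTop (𝓝 c) ∧
          |c| ≤ K * (∏ j, ∑' n : ℤ, ‖fc (f j) n‖) *
            ∏ j, (d j : ℝ) ^ (-(κ * (q j : ℝ) ^ 2)) := by
  obtain ⟨K, hK0, hK⟩ := unif_charges hb hκ0 hκ (fun j => (q j : ℝ)) (fun j => by positivity)
  refine ⟨K, hK0, fun f hf hq x d hd hdist => ?_⟩
  have hsum := fun j => fc_hasSum (f j) (hf j)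
  obtain ⟨hA, _⟩ := prod_series k (fun j => fc (f j)) hf
  obtain ⟨_, hB⟩ := prod_series k (fun j n => ‖fc (f j) n‖) (fun j => by
    simpa only [norm_norm] using hf j)
  have hser := fun R : ℕ => expect_series R b (fun j => fc (f j)) (fun j => f j) hf hsum x
  set D := ∏ j, (d j : ℝ) ^ (-(κ * (q j : ℝ) ^ 2)) with hD
  have hD0 : 0 ≤ D := Finset.prod_nonneg fun j _ => by positivity
  have hfin : ∀ R : ℕ, (∀ j, x j ∈ box R) →
      |expect (boxEnergy R b) fun θ => ∏ j, f j (ext θ (x j))| ≤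
        K * (∏ j, ∑' n : ℤ, ‖fc (f j) n‖) * D := by
    intro R hR
    rw [hser R]
    have h1 : ∀ m : Fin k → ℤ, ‖(∏ j, fc (f j) (m j)).re * chargeCorr R b m x‖ ≤
        ‖∏ j, fc (f j) (m j)‖ * (K * D) := by
      intro m
      rw [norm_mul, Real.norm_eq_abs, Real.norm_eq_abs]
      by_cases hm : ∀ j, (q j : ℝ) ≤ |(m j : ℝ)|
      · have h2 := chargeCorr_nonneg R hb.le m hR
        have h3 := hK m hm R x d hR hd hdist
        rw [abs_of_nonneg h2]
        exact mul_le_mul (Complex.abs_re_le_norm _) h3 h2 (norm_nonneg _)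
      · rw [not_forall] at hm
        obtain ⟨j, hj⟩ := hm
        have h4 : |m j| < q j := by
          have := not_le.1 hj
          exact_mod_cast this
        have h5 : ∏ j, fc (f j) (m j) = 0 :=
          Finset.prod_eq_zero (Finset.mem_univ j) (hq j (m j) h4)
        rw [h5]
        simp
    have h2 : Summable fun m : Fin k → ℤ => ‖∏ j, fc (f j) (m j)‖ * (K * D) := hA.mul_right _
    have h3 : Summable fun m : Fin k → ℤ => ‖(∏ j, fc (f j) (m j)).re * chargeCorr R b m x‖ :=
      Summable.of_nonneg_of_le (fun _ => norm_nonneg _) h1 h2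
    rw [← Real.norm_eq_abs]
    refine (norm_tsum_le_tsum_norm h3).trans ((h3.tsum_le_tsum h1 h2).trans (le_of_eq ?_))
    rw [tsum_mul_right]
    have h4 : ∑' m : Fin k → ℤ, ‖∏ j, fc (f j) (m j)‖ = ∏ j, ∑' n : ℤ, ‖fc (f j) n‖ := by
      rw [← hB]
      exact tsum_congr fun m => norm_prod _ _
    rw [h4]
    ring
  refine ⟨hfin, ?_⟩
  choose c hc using fun m : Fin k → ℤ => chargeCorr_tendsto' hb.le m x
  have hlim : Tendsto (fun R : ℕ => expect (boxEnergy R b) fun θ => ∏ j, f j (ext θ (x j)))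
      atTop (𝓝 (∑' m : Fin k → ℤ, (∏ j, fc (f j) (m j)).re * c m)) := by
    simp_rw [hser]
    refine tendsto_tsum_of_dominated_convergence (bound := fun m => ‖∏ j, fc (f j) (m j)‖) hA
      (fun m => (hc m).const_mul _) ?_
    filter_upwards [eventually_box x] with R hR m
    rw [norm_mul, Real.norm_eq_abs, Real.norm_eq_abs, abs_of_nonneg (chargeCorr_nonneg R hb.le m hR)]
    refine (mul_le_mul (Complex.abs_re_le_norm _) (chargeCorr_le_one R m hR)
      (chargeCorr_nonneg R hb.le m hR) (norm_nonneg _)).trans (le_of_eq (mul_one _))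
  refine ⟨_, hlim, ?_⟩
  refine le_of_tendsto hlim.abs ?_
  filter_upwards [eventually_box x] with R hR
  exact hfin R hR

end Vale.Agent.P159.H260
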